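import Vale.Agent.P237.Quant.TailData.N31.tailN31P0Part0
import Vale.Agent.P237.Quant.TailData.N31.tailN31P0Part1
import Vale.Agent.P237.Quant.TailData.N31.tailN31P0Part2
import Vale.Agent.P237.Quant.TailData.N31.tailN31P0Part3

/-!
Tail calibration tailN31P0 in dimension 31. The check. Generated data, checked by the kernel.
-/

set_option maxRecDepth 100000
set_option linter.all false

namespace Vale.Agent.P237.Quant.TailData

open TailCert


/-- The calibration. -/
noncomputable def tailN31P0 : Cfg :=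
  tailN31P0Base.withIvals (List.flatten [tailN31P0L0, tailN31P0L1, tailN31P0L2, tailN31P0L3, tailN31P0L4, tailN31P0L5, tailN31P0L6, tailN31P0L7, tailN31P0L8, tailN31P0L9, tailN31P0L10, tailN31P0L11, tailN31P0L12, tailN31P0L13, tailN31P0L14])

theorem tailN31P0_parts : [tailN31P0L0, tailN31P0L1, tailN31P0L2, tailN31P0L3, tailN31P0L4, tailN31P0L5, tailN31P0L6, tailN31P0L7, tailN31P0L8, tailN31P0L9, tailN31P0L10, tailN31P0L11, tailN31P0L12, tailN31P0L13, tailN31P0L14].Forall fun l => tailN31P0Base.partUsed tailN31P0Used l = true := by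
  simp only [List.forall_cons, List.Forall]
  exact ⟨tailN31P0L0_ok, tailN31P0L1_ok, tailN31P0L2_ok, tailN31P0L3_ok, tailN31P0L4_ok, tailN31P0L5_ok, tailN31P0L6_ok, tailN31P0L7_ok, tailN31P0L8_ok, tailN31P0L9_ok, tailN31P0L10_ok, tailN31P0L11_ok, tailN31P0L12_ok, tailN31P0L13_ok, tailN31P0L14_ok⟩

theorem tailN31P0_check : tailN31P0.check = true :=
  Cfg.check_of_parts (by decide +kernel) tailN31P0_parts

end Vale.Agent.P237.Quant.TailData
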