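import Vale.Agent.P237.Quant.TailData.N31.tailN31P2Part0
import Vale.Agent.P237.Quant.TailData.N31.tailN31P2Part1
import Vale.Agent.P237.Quant.TailData.N31.tailN31P2Part2
import Vale.Agent.P237.Quant.TailData.N31.tailN31P2Part3

/-!
Tail calibration tailN31P2 in dimension 31. The check. Generated data, checked by the kernel.
-/

set_option maxRecDepth 100000
set_option linter.all false

namespace Vale.Agent.P237.Quant.TailData

open TailCert


/-- The calibration. -/
noncomputable def tailN31P2 : Cfg :=
  tailN31P2Base.withIvals (List.flatten [tailN31P2L0, tailN31P2L1, tailN31P2L2, tailN31P2L3, tailN31P2L4, tailN31P2L5, tailN31P2L6, tailN31P2L7, tailN31P2L8, tailN31P2L9, tailN31P2L10, tailN31P2L11, tailN31P2L12])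

theorem tailN31P2_parts : [tailN31P2L0, tailN31P2L1, tailN31P2L2, tailN31P2L3, tailN31P2L4, tailN31P2L5, tailN31P2L6, tailN31P2L7, tailN31P2L8, tailN31P2L9, tailN31P2L10, tailN31P2L11, tailN31P2L12].Forall fun l => tailN31P2Base.partUsed tailN31P2Used l = true := by
  simp only [List.forall_cons, List.Forall]
  exact ⟨tailN31P2L0_ok, tailN31P2L1_ok, tailN31P2L2_ok, tailN31P2L3_ok, tailN31P2L4_ok, tailN31P2L5_ok, tailN31P2L6_ok, tailN31P2L7_ok, tailN31P2L8_ok, tailN31P2L9_ok, tailN31P2L10_ok, tailN31P2L11_ok, tailN31P2L12_ok⟩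

theorem tailN31P2_check : tailN31P2.check = true :=
  Cfg.check_of_parts (by decide +kernel) tailN31P2_parts

end Vale.Agent.P237.Quant.TailData
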